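import Mathlib
import Vale.Agent.P031.Main

/-!
# P031 (partial, Q2): the ratios `V(cx)/V(x)` of the counting function of totient values

`V(x)` counts the values `v ≤ x` of Euler's function, `U(x)` those which are not twice another
value. The geometric mean of `V(cx)/V(x)` over the scales `c ^ k x` tends to `c` for every `c > 1`;
so `c` is the only possible limit in Q2, and it lies between the lower and the upper limit.
For `c = 2` one has `V(2x) = V(x) + U(2x)`: Q2 for `c = 2` says that asymptotically exactly half of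
the totient values are not twice a totient value, and this holds in the mean.
-/

namespace Vale.Agent.Results.P031.RatiosInTheMean

open Vale.Agent.P031 Filter Topology

theorem result :
    (∀ c : ℝ, 1 < c →
      (∀ x : ℝ, 1 ≤ x → Tendsto (fun K : ℕ => (∑ k ∈ Finset.range K,
        Real.log ((V (c ^ (k + 1) * x) : ℝ) / V (c ^ k * x))) / K) atTop (𝓝 (Real.log c))) ∧
      (∀ x d ε : ℝ, 1 ≤ x → c < d → 0 < ε → ∀ᶠ K : ℕ in atTop,
        (1 - Real.log c / Real.log d - ε) * K ≤ (((Finset.range K).filter fun k =>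
          (V (c ^ (k + 1) * x) : ℝ) < d * V (c ^ k * x)).card : ℝ)) ∧
      (∀ d : ℝ, c < d → ∃ᶠ x : ℝ in atTop, (V (c * x) : ℝ) < d * V x) ∧
      (∀ d : ℝ, 0 < d → d < c → ∃ᶠ x : ℝ in atTop, d * V x < V (c * x)) ∧
      (∀ l : ℝ, Tendsto (fun x : ℝ => (V (c * x) : ℝ) / V x) atTop (𝓝 l) → l = c)) ∧
    (∀ x : ℝ, V (2 * x) = V x + U (2 * x)) ∧
    (Tendsto (fun x : ℝ => (V (2 * x) : ℝ) / V x) atTop (𝓝 2) ↔
      Tendsto (fun x : ℝ => (U x : ℝ) / V x) atTop (𝓝 (1 / 2))) ∧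
    (∀ x : ℝ, 1 ≤ x → Tendsto (fun K : ℕ => (∑ k ∈ Finset.range K,
      Real.log (1 - (U (2 ^ (k + 1) * x) : ℝ) / V (2 ^ (k + 1) * x))) / K) atTop
        (𝓝 (-Real.log 2))) ∧
    (∀ d : ℝ, 1 / 2 < d → d < 1 → ∃ᶠ x : ℝ in atTop, (U x : ℝ) < d * V x) ∧
    (∀ d : ℝ, 0 < d → d < 1 / 2 → ∃ᶠ x : ℝ in atTop, d * V x < (U x : ℝ)) :=
  ⟨fun _ hc => ⟨fun _ hx => gm hc hx, fun _ _ ε hx hd hε => scales hc hx hd ε hε,
    freq_lt hc, freq_gt hc, limit_eq hc⟩, V_double, iff_half, fun _ hx => gm_U hx,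
    freq_U_lt, freq_U_gt⟩

end Vale.Agent.Results.P031.RatiosInTheMean
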